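import Vale.Agent.P144L.Defs

/-!
Cones in the lattice; the model of a piece of the boundary.
-/

namespace Vale.Agent.P144L.G

open Finset Vale.Agent.P144Z

theorem len_eq (v : ℤ × ℤ) : len v = ‖(⟨v.1, v.2⟩ : ℂ)‖ := by
  rw [Complex.norm_eq_sqrt_sq_add_sq]
  rfl

theorem len_add (u v : ℤ × ℤ) : len (u + v) ≤ len u + len v := by
  rw [len_eq, len_eq, len_eq]
  refine le_trans (le_of_eq ?_) (norm_add_le _ _)
  congr 1
  apply Complex.ext <;> simp

theorem len_neg (d : ℤ × ℤ) : len (-d) = len d := by simp [len]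

theorem ht_neg (ν : ℂ) (v : ℤ × ℤ) : ht ν (-v) = -ht ν v := by simp [ht]; ring

theorem ht_neg' (ν : ℂ) (v : ℤ × ℤ) : ht (-ν) v = -ht ν v := by simp [ht]; ring

theorem zd_neg (v : ℤ × ℤ) : zd (-v) 0 = zd v 0 := by simp [zd]

theorem zd_sub (u v : ℤ × ℤ) : zd u v = zd (u - v) 0 := by simp [zd]

theorem zd_add_left (u v : ℤ × ℤ) : zd (u + v) u = zd v 0 := by simp [zd]

theorem abs_ht {ν : ℂ} (hν : ‖ν‖ = 1) (v : ℤ × ℤ) : |ht ν v| ≤ len v :=
  Real.abs_le_sqrt (B1b.ht_sq_le hν v)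

theorem len_zd (v : ℤ × ℤ) : len v ≤ 3 / 2 * zd v 0 := by
  have h := B1b.abs_le_zd v
  refine Real.sqrt_le_iff.2 ⟨by positivity, ?_⟩
  nlinarith [sq_abs (v.1 : ℝ), sq_abs (v.2 : ℝ), abs_nonneg (v.1 : ℝ), abs_nonneg (v.2 : ℝ)]

theorem zd_len (v : ℤ × ℤ) : (zd v 0 : ℝ) ≤ len v := Real.le_sqrt_of_sq_le (B1b.zd_sq_le v)

theorem s2_le : √2 / 2 ≤ 0.7072 := by
  have : √2 ≤ 1.4144 := by rw [Real.sqrt_le_left (by norm_num)]; norm_num
  linarith

theorem s2_ge : 0.707 ≤ √2 / 2 := by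
  have : (1.414 : ℝ) ≤ √2 := Real.le_sqrt_of_sq_le (by norm_num)
  linarith

theorem cn_of_dp {ν : ℂ} (hν : ‖ν‖ = 1) {c d : ℤ × ℤ} (hc : Dp ν c) (hd : zd d 0 ≤ 30) :
    Cn ν (c + d) := by
  have h1 := len_add c d
  have h2 := abs_le.1 (abs_ht hν d)
  have h3 := len_zd d
  have h4 : (zd d 0 : ℝ) ≤ 30 := by exact_mod_cast hd
  have h5 := s2_le
  have h6 := s2_ge
  unfold Dp at hc
  unfold Cn
  rw [B1b.ht_add]
  nlinarith [GeoA.len_nonneg d]

theorem Dp.cn {ν : ℂ} {c : ℤ × ℤ} (hc : Dp ν c) : Cn ν c := by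
  unfold Dp at hc
  unfold Cn
  linarith

/-- The lattice point near `t ν`. -/
noncomputable def rd (ν : ℂ) (t : ℕ) : ℤ × ℤ := (⌊t * ν.re⌋, ⌊t * ν.im⌋)

theorem zd_rd {ν : ℂ} (hν : ‖ν‖ = 1) (t : ℕ) : zd (rd ν t) 0 ≤ t := by
  have h1 := GeoA.floor_le (GeoA.abs_re hν) t
  have h2 := GeoA.floor_le (GeoA.abs_im hν) t
  simp only [zd, rd, Prod.fst_zero, Prod.snd_zero, sub_zero]
  omega

theorem rd_est {ν : ℂ} (hν : ‖ν‖ = 1) (t : ℕ) (d : ℤ × ℤ) :
    len (rd ν t + d) ≤ t + 3 / 2 * (zd d 0 + 1) ∧ t - 3 / 2 * (zd d 0 + 1) ≤ ht ν (rd ν t + d) := by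
  obtain ⟨e, he⟩ : ∃ e : ℂ, e = (⟨(rd ν t + d).1, (rd ν t + d).2⟩ : ℂ) - t * ν := ⟨_, rfl⟩
  have h := B1b.abs_le_zd d
  have a1 := abs_le.1 h.1
  have a2 := abs_le.1 h.2
  have b1 := Int.floor_le (t * ν.re)
  have b2 := Int.lt_floor_add_one (t * ν.re)
  have b3 := Int.floor_le (t * ν.im)
  have b4 := Int.lt_floor_add_one (t * ν.im)
  have e1 : e.re = ⌊t * ν.re⌋ + d.1 - t * ν.re := by simp [he, rd]
  have e2 : e.im = ⌊t * ν.im⌋ + d.2 - t * ν.im := by simp [he, rd]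
  have c1 : e.re ^ 2 ≤ (zd d 0 + 1) ^ 2 := sq_le_sq' (by linarith) (by linarith)
  have c2 : e.im ^ 2 ≤ (zd d 0 + 1) ^ 2 := sq_le_sq' (by linarith) (by linarith)
  have n : ‖e‖ ≤ 3 / 2 * (zd d 0 + 1) := by
    rw [Complex.norm_eq_sqrt_sq_add_sq]
    exact Real.sqrt_le_iff.2 ⟨by positivity, by nlinarith⟩
  constructor
  · rw [len_eq, ← sub_add_cancel (⟨(rd ν t + d).1, (rd ν t + d).2⟩ : ℂ) (t * ν), ← he]
    refine (norm_add_le _ _).trans ?_
    rw [norm_mul, hν, Complex.norm_natCast]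
    linarith
  · have s := GeoA.sq_add hν
    have q : |e.re * ν.re + e.im * ν.im| ≤ ‖e‖ := by
      rw [Complex.norm_eq_sqrt_sq_add_sq]
      exact Real.abs_le_sqrt (by nlinarith [sq_nonneg (e.re * ν.im - e.im * ν.re)])
    have : ht ν (rd ν t + d) = t + (e.re * ν.re + e.im * ν.im) := by
      rw [e1, e2]
      simp only [ht, rd, Prod.fst_add, Prod.snd_add, Int.cast_add]
      linear_combination (t : ℝ) * s
    linarith [(abs_le.1 q).1]

theorem cn_rd {ν : ℂ} (hν : ‖ν‖ = 1) {t D : ℕ} (ht' : 9 * (D + 1) ≤ t) {d : ℤ × ℤ}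
    (hd : zd d 0 ≤ D) : Cn ν (rd ν t + d) := by
  obtain ⟨h1, h2⟩ := rd_est hν t d
  have h3 : (zd d 0 : ℝ) ≤ D := by exact_mod_cast hd
  have h4 : 9 * ((D : ℝ) + 1) ≤ t := by exact_mod_cast ht'
  have h5 := mul_le_mul s2_le h1 (GeoA.len_nonneg _) (by norm_num)
  unfold Cn
  linarith

theorem zd_cn (k : Fin 4) : zd (cn k) 0 ≤ 1 := by revert k; decide

theorem zd_st4 (k : Fin 4) : zd (st4 k) 0 ≤ 1 := by revert k; decide

theorem st4_two (v : ℤ × ℤ) (a : Fin 4) : v + st4 a + st4 (a + 2) = v := by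
  have : st4 a + st4 (a + 2) = 0 := by revert a; decide
  rw [add_assoc, this, add_zero]

theorem st4_cn (v : ℤ × ℤ) (a : Fin 4) : v + st4 a - cn (a + 2 - 1) = v - cn a ∧
    v + st4 a - cn (a + 2) = v - cn (a - 1) := by
  have : st4 a - cn (a + 2 - 1) = -cn a ∧ st4 a - cn (a + 2) = -cn (a - 1) := by revert a; decide
  rw [add_sub_assoc v, add_sub_assoc v, this.1, this.2]
  exact ⟨(sub_eq_add_neg _ _).symm, (sub_eq_add_neg _ _).symm⟩

/-- The cones at a boundary site. -/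
theorem conL : ConL := by
  intro pr out ν h
  have hν := h.mn.nrm
  refine ⟨⟨hν, fun v a => ?_, fun v a c hc k => ⟨fun o => k.1 (h.ou.up v c hc o),
    fun o => k.2 (h.ou.up _ c hc (by rwa [add_right_comm] at o))⟩⟩, fun y ⟨y1, x, x1, x2⟩ => ?_⟩
  · unfold prO
    rw [st4_two]
    exact and_comm
  have key : ∀ c d, Dp ν c → zd d 0 ≤ 1 → ¬ out (y + c + d) := fun c d hc hd o => by
    refine x2 (h.ou.up x (c + (y - x + d)) (cn_of_dp hν hc ?_) ?_)
    · have := B1b.zd_add (y - x) d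
      rw [← zd_sub y x, GeoA.zd_comm y x] at this
      omega
    · rwa [show x + (c + (y - x + d)) = y + c + d by abel]
  refine ⟨⟨fun c a hc => h.lo y c a y1 hc, fun c a hc => by_contra fun o => ?_⟩,
    fun c a hc k => k.1 (h.ou.up _ c (Dp.cn hc) (by rwa [sub_add_cancel])), fun c a hc => ⟨?_, ?_⟩⟩
  · exact key c (-cn a) hc (by rw [zd_neg]; exact zd_cn a)
      (by rw [← sub_eq_add_neg]; exact (h.rem _ a o).2)
  · simpa using key c 0 hc (by simp [zd])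
  · exact key c _ hc (zd_st4 a)

theorem epi_neg {S : Set (ℤ × ℤ)} {ν : ℂ} {κ : ℝ} (h : Epi S ν κ) : Epi {v | -v ∈ S} (-ν) κ := by
  intro u hu v hv
  have := h (-u) hu (-v) (by rwa [len_neg, ht_neg, ← ht_neg'])
  rwa [← neg_add] at this

theorem near_in {M : ℕ} [NeZero M] {I : Finset (Tor M)} {b : Tor M} {S : Set (ℤ × ℤ)} {r : ℕ}
    (h : ∀ v : ℤ × ℤ, zd v 0 ≤ r → (b + prj M v ∈ I ↔ v ∈ S)) {v : ℤ × ℤ} {d : ℕ}
    (hv : zd v 0 + d ≤ r) {f : Tor M} (hf : tdist f (b + prj M v) ≤ d) :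
    ∃ x, zd x v ≤ d ∧ b + prj M x = f ∧ (f ∈ I ↔ x ∈ S) := by
  have e : b + prj M (v + lft (f - (b + prj M v))) = f := by
    rw [G.prj_add, prj_lft]
    abel
  have h1 := GeoA.zd_lft f (b + prj M v)
  have h2 := B1b.zd_add v (lft (f - (b + prj M v)))
  refine ⟨_, by rw [zd_add_left]; omega, e, ?_⟩
  rw [← h _ (by omega), e]

/-- The model seen from a face. -/
theorem modL : ModL := by
  intro M _ R r b hL _
  obtain ⟨S, ν, hν, hS, h⟩ := hL b
  have up : ∀ {S : Set (ℤ × ℤ)} {ν : ℂ}, Epi S ν (√2 / 2) → ∀ v c d, Cn ν c → v + d ∈ S →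
      v + c + d ∈ S := fun hS v c d hc o => by
    rw [add_right_comm]
    exact hS _ o c hc
  cases hfr : R.fr
  · refine ⟨fun v a => v - cn (a - 1) ∈ S ∨ v - cn a ∈ S, fun v => v ∉ S, ν,
      ⟨⟨hν, fun v a => ?_, fun v a c hc o => ?_⟩, ⟨hν, fun v c hc o k => o (hS v k c hc)⟩,
        fun v a o => not_or.1 o, fun x c a o hc k => ?_⟩, fun v hv => ⟨fun a => ?_, ?_⟩,
      fun v hv ⟨o, ⟨f, f1, f2⟩, _⟩ => ?_⟩
    · rw [(st4_cn v a).1, (st4_cn v a).2]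
      exact or_comm
    · simp only [sub_eq_add_neg (_ : ℤ × ℤ)] at o ⊢
      exact o.imp (up hS v c _ hc) (up hS v c _ hc)
    · have : ∀ k, x - c - cn k ∉ S := fun k o' => o (by
        simpa using hS _ o' (c + cn k) (cn_of_dp hν hc ((zd_cn k).trans (by norm_num))))
      exact k.elim (this _) (this _)
    · have : ∀ k, zd (v - cn k) 0 ≤ r := fun k => by
        have := B1b.zd_sub v (cn k)
        have := zd_cn k
        omega
      simp only [Reg.pr, hfr, h _ (this _), Bool.false_eq_true, if_false]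
    · simp only [Reg.out, hfr, h v (by omega), Bool.false_eq_true, if_false]
    · simp only [Bool.false_eq_true, if_false] at o f2
      obtain ⟨x, x1, -, x2⟩ := near_in h (d := 1) (by omega) f2
      exact ⟨fun k => o ((h v (by omega)).2 k), x, by omega, not_not.2 (x2.1 f1)⟩
  · have hS' := epi_neg hS
    have hν' : ‖-ν‖ = 1 := by rw [norm_neg, hν]
    have h' : ∀ v : ℤ × ℤ, zd v 0 ≤ r → (b - prj M v ∈ R.In ↔ v ∈ {v | -v ∈ S}) := fun v hv => by
      rw [Set.mem_ofPred_eq, ← h _ (by rwa [zd_neg]), sub_eq_add_neg]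
      simp [prj]
    have h'' : ∀ v : ℤ × ℤ, -v ∈ S ↔ v ∈ {v | -v ∈ S} := fun _ => Iff.rfl
    generalize {v | -v ∈ S} = S' at hS' h' h''
    refine ⟨fun v a => v ∈ S' ∧ v + st4 a ∈ S', fun v => ∃ k, v + cn k ∉ S', -ν,
      ⟨⟨hν', fun v a => ?_, fun v a c hc o => ⟨hS' v o.1 c hc, up hS' v c _ hc o.2⟩⟩,
        ⟨hν', fun v c hc o => o.imp fun k o' k' => o' (up hS' v c _ hc k')⟩,
        fun v a o => ?_, fun x c a ⟨k, o⟩ hc k' => o ?_⟩, fun v hv => ⟨fun a => ?_, ?_⟩,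
      fun v hv ⟨o, ⟨f, f1, f2⟩, _⟩ => ?_⟩
    · rw [st4_two]
      exact and_comm
    · rcases not_and_or.1 o with o | o
      · exact ⟨⟨a - 1, by rwa [sub_add_cancel]⟩, a, by rwa [sub_add_cancel]⟩
      · exact ⟨⟨a + 2, by rwa [← (st4_cn v a).2, sub_add_cancel]⟩,
          a + 2 - 1, by rwa [← (st4_cn v a).1, sub_add_cancel]⟩
    · have := hS' _ k'.1 (c + cn k) (cn_of_dp hν' hc ((zd_cn k).trans (by norm_num)))
      rwa [← add_assoc, sub_add_cancel] at this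
    · have := B1b.zd_st4 v a
      simp only [Reg.pr, hfr, h' v (by omega), h' (v + st4 a) (by omega), if_true]
    · have : ∀ k, zd (v + cn k) 0 ≤ r := fun k => by
        have := B1b.zd_add v (cn k)
        have := zd_cn k
        omega
      simp only [Reg.out, hfr, h' _ (this _), if_true]
    · simp only [if_true] at o f2
      obtain ⟨x, x1, -, x2⟩ := near_in h (d := 1) (by rw [zd_neg]; omega) f2
      refine ⟨⟨0, fun k => o ((h _ (by rw [zd_neg]; omega)).2 ((h'' v).2 (by rwa [show cn 0 = 0 from rfl, add_zero] at k)))⟩,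
        -x + rd (-ν) 18, ?_, fun ⟨k, o'⟩ => o' ?_⟩
      · have a1 := GeoA.zd_tri (-x + rd (-ν) 18) (-x) v
        have a2 := zd_rd hν' 18
        rw [zd_add_left] at a1
        rw [zd_sub, ← zd_neg, show -(x - -v) = -x - v by abel, ← zd_sub] at x1
        omega
      · rw [add_assoc]
        exact hS' _ ((h'' _).1 (by simpa using x2.1 f1)) _ (cn_rd hν' (D := 1) le_rfl (zd_cn k))

end Vale.Agent.P144L.G
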