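import Vale.Agent.P144L.G.Bas
import Vale.Agent.P144L.Defs2

/-!
The local model and the number of boundary faces.
-/

namespace Vale.Agent.P144L.G

open Finset Vale.Agent.P144Z

/-- The model seen from a face. -/
theorem modA : ModA := by
  intro M _ R r b hL _
  obtain ⟨S, ν, hν, hS, h⟩ := hL
  have up : ∀ {S : Set (ℤ × ℤ)} {ν : ℂ}, Epi S ν (√2 / 2) → ∀ v c d, Cn ν c → v + d ∈ S →
      v + c + d ∈ S := fun hS v c d hc o => by
    rw [add_right_comm]
    exact hS _ o c hc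
  cases hfr : R.fr
  · refine ⟨fun v a => v - cn (a - 1) ∈ S ∨ v - cn a ∈ S, fun v => v ∉ S, ν,
      ⟨⟨hν, fun v a => ?_, fun v a c hc o => ?_⟩, ⟨hν, fun v c hc o k => o (hS v k c hc)⟩,
        fun v a o => not_or.1 o, fun x c a o hc k => ?_⟩, fun v hv => ⟨fun a => ?_, ?_⟩,
      fun v hv ⟨o, ⟨f, f1, f2⟩, _⟩ => ?_⟩
    · rw [(st4_cn v a).1, (st4_cn v a).2]
      exact or_comm
    · simp only [sub_eq_add_neg (_ : ℤ × ℤ)] at o ⊢
      exact o.imp (up hS v c _ hc) (up hS v c _ hc)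
    · have : ∀ k, x - c - cn k ∉ S := fun k o' => o (by
        simpa using hS _ o' (c + cn k) (cn_of_dp hν hc ((zd_cn k).trans (by norm_num))))
      exact k.elim (this _) (this _)
    · have : ∀ k, zd (v - cn k) 0 ≤ r := fun k => by
        have := B1b.zd_sub v (cn k)
        have := zd_cn k
        omega
      simp only [Reg.pr, hfr, h _ (this _), Bool.false_eq_true, if_false]
    · simp only [Reg.out, hfr, h v (by omega), Bool.false_eq_true, if_false]
    · simp only [Bool.false_eq_true, if_false] at o f2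
      obtain ⟨x, x1, -, x2⟩ := near_in h (d := 1) (by omega) f2
      exact ⟨fun k => o ((h v (by omega)).2 k), x, by omega, not_not.2 (x2.1 f1)⟩
  · have hS' := epi_neg hS
    have hν' : ‖-ν‖ = 1 := by rw [norm_neg, hν]
    have h' : ∀ v : ℤ × ℤ, zd v 0 ≤ r → (b - prj M v ∈ R.In ↔ v ∈ {v | -v ∈ S}) := fun v hv => by
      rw [Set.mem_ofPred_eq, ← h _ (by rwa [zd_neg]), sub_eq_add_neg]
      simp [prj]
    have h'' : ∀ v : ℤ × ℤ, -v ∈ S ↔ v ∈ {v | -v ∈ S} := fun _ => Iff.rfl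
    generalize {v | -v ∈ S} = S' at hS' h' h''
    refine ⟨fun v a => v ∈ S' ∧ v + st4 a ∈ S', fun v => ∃ k, v + cn k ∉ S', -ν,
      ⟨⟨hν', fun v a => ?_, fun v a c hc o => ⟨hS' v o.1 c hc, up hS' v c _ hc o.2⟩⟩,
        ⟨hν', fun v c hc o => o.imp fun k o' k' => o' (up hS' v c _ hc k')⟩,
        fun v a o => ?_, fun x c a ⟨k, o⟩ hc k' => o ?_⟩, fun v hv => ⟨fun a => ?_, ?_⟩,
      fun v hv ⟨o, ⟨f, f1, f2⟩, _⟩ => ?_⟩
    · rw [st4_two]
      exact and_comm
    · rcases not_and_or.1 o with o | o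
      · exact ⟨⟨a - 1, by rwa [sub_add_cancel]⟩, a, by rwa [sub_add_cancel]⟩
      · exact ⟨⟨a + 2, by rwa [← (st4_cn v a).2, sub_add_cancel]⟩,
          a + 2 - 1, by rwa [← (st4_cn v a).1, sub_add_cancel]⟩
    · have := hS' _ k'.1 (c + cn k) (cn_of_dp hν' hc ((zd_cn k).trans (by norm_num)))
      rwa [← add_assoc, sub_add_cancel] at this
    · have := B1b.zd_st4 v a
      simp only [Reg.pr, hfr, h' v (by omega), h' (v + st4 a) (by omega), if_true]
    · have : ∀ k, zd (v + cn k) 0 ≤ r := fun k => by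
        have := B1b.zd_add v (cn k)
        have := zd_cn k
        omega
      simp only [Reg.out, hfr, h' _ (this _), if_true]
    · simp only [if_true] at o f2
      obtain ⟨x, x1, -, x2⟩ := near_in h (d := 1) (by rw [zd_neg]; omega) f2
      refine ⟨⟨0, fun k => o ((h _ (by rw [zd_neg]; omega)).2 ((h'' v).2 (by rwa [show cn 0 = 0 from rfl, add_zero] at k)))⟩,
        -x + rd (-ν) 18, ?_, fun ⟨k, o'⟩ => o' ?_⟩
      · have a1 := GeoA.zd_tri (-x + rd (-ν) 18) (-x) v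
        have a2 := zd_rd hν' 18
        rw [zd_add_left] at a1
        rw [zd_sub, ← zd_neg, show -(x - -v) = -x - v by abel, ← zd_sub] at x1
        omega
      · rw [add_assoc]
        exact hS' _ ((h'' _).1 (by simpa using x2.1 f1)) _ (cn_rd hν' (D := 1) le_rfl (zd_cn k))

theorem muT_mul {M : ℕ} [NeZero M] {Z : Finset (Tor M)} {s m : ℕ} (hs : 1 ≤ s) (h : MuT Z s m)
    (n : ℕ) : MuT Z (n * s) (m * (2 * n + 1) ^ 2) := by
  intro x
  have s0 : (0 : ℤ) < s := by exact_mod_cast hs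
  have := card_le_mul_card_image_of_maps_to (s := Z.filter fun y => tdist y x ≤ n * s)
    (t := Icc (-(n : ℤ)) n ×ˢ Icc (-(n : ℤ)) n)
    (f := fun y => ((lft (y - x)).1 / s, (lft (y - x)).2 / s)) (fun y hy => ?_) m fun c _ => ?_
  · rw [card_product, Int.card_Icc, show ((n : ℤ) + 1 - -n).toNat = 2 * n + 1 by omega] at this
    rwa [sq]
  · have h1 := (mem_filter.1 hy).2
    have k : ∀ a : ℤ, a.natAbs ≤ n * s → a / s ∈ Icc (-(n : ℤ)) n := fun a ha => by
      have h2 : |a| ≤ n * s := by rw [Int.abs_eq_natAbs]; exact_mod_cast ha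
      rw [abs_le] at h2
      exact mem_Icc.2 ⟨(Int.le_ediv_iff_mul_le s0).2 (by linarith),
        Int.ediv_le_of_le_mul s0 h2.2⟩
    exact mem_product.2 ⟨k _ ((le_max_left _ _).trans h1), k _ ((le_max_right _ _).trans h1)⟩
  · refine le_trans (card_le_card fun y hy => ?_) (h (x + prj M (c.1 * s, c.2 * s)))
    obtain ⟨h1, h2⟩ := mem_filter.1 hy
    refine mem_filter.2 ⟨(mem_filter.1 h1).1, ?_⟩
    have e : y = prj M (lft (y - x)) + x := by rw [prj_lft, sub_add_cancel]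
    rw [e, add_comm x, tdist_add]
    refine (tdist_prj_le _ _).trans ?_
    have k : ∀ a : ℤ, (a - a / s * s).natAbs ≤ s := fun a => by
      have := Int.emod_nonneg a s0.ne'
      have := Int.emod_lt_of_pos a s0
      have := Int.emod_add_ediv_mul a s
      omega
    rw [← h2]
    exact max_le (k _) (k _)

theorem len_sq {ν : ℂ} (hν : ‖ν‖ = 1) (v : ℤ × ℤ) :
    len v ^ 2 = ht ν v ^ 2 + ht (Complex.I * ν) v ^ 2 := by
  rw [len, Real.sq_sqrt (by positivity)]
  simp only [ht, Complex.mul_re, Complex.mul_im, Complex.I_re, Complex.I_im]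
  linear_combination (-(v.1 : ℝ) ^ 2 - (v.2 : ℝ) ^ 2) * GeoA.sq_add hν

theorem len_of_not_dp {ν : ℂ} (hν : ‖ν‖ = 1) {c : ℤ × ℤ} (h1 : ¬ Dp ν c) (h2 : ¬ Dp ν (-c)) :
    len c ≤ 2 * |ht (Complex.I * ν) c| + 1000 := by
  unfold Dp at h1 h2
  rw [len_neg, ht_neg] at h2
  by_contra h3
  have h4 := len_sq hν c
  have h5 := mul_le_mul_of_nonneg_right s2_le (GeoA.len_nonneg c)
  have h6 := abs_nonneg (ht (Complex.I * ν) c)
  have h7 : ht ν c ^ 2 ≤ (0.81 * len c) ^ 2 := sq_le_sq' (by linarith) (by linarith)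
  have h8 : |ht (Complex.I * ν) c| ^ 2 ≤ (len c / 2) ^ 2 := pow_le_pow_left₀ h6 (by linarith) 2
  rw [sq_abs] at h8
  nlinarith

/-- The boundary is one-dimensional. -/
theorem cntA : CntA := by
  refine ⟨5 * (2 * 1002 + 1) ^ 2, fun M _ I r z ⟨S, ν, hν, hS, h⟩ _ ρ s m Z hs hρ hZ hm => ?_⟩
  have s0 : (0 : ℝ) < s := by exact_mod_cast hs
  have e : ∀ y : Tor M, z + prj M (lft (y - z)) = y := fun y => by rw [prj_lft, add_sub_cancel]
  have nd : ∀ y ∈ Z, ∀ y' ∈ Z, ¬ Dp ν (lft (y' - z) - lft (y - z)) := by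
    intro y hy y' hy' hd
    obtain ⟨⟨-, ⟨f, f1, f2⟩, -⟩, a1⟩ := hZ y hy
    obtain ⟨⟨a2, -⟩, a3⟩ := hZ y' hy'
    rw [← GeoA.zd_lft] at a1 a3
    rw [← e y] at f2
    obtain ⟨x, x1, -, x2⟩ := near_in h (d := 1) (by omega) f2
    have := hS x (x2.1 f1) _ (cn_of_dp hν hd (d := lft (y - z) - x) (by
      rw [← zd_sub, GeoA.zd_comm]; omega))
    rw [sub_add_sub_cancel, add_sub_cancel, ← h _ (by omega), e] at this
    exact a2 this
  have := card_le_mul_card_image_of_maps_to (s := Z)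
    (t := Icc (-(2 * (ρ / s + 1 : ℕ) : ℤ)) (2 * (ρ / s + 1 : ℕ)))
    (f := fun y => ⌊ht (Complex.I * ν) (lft (y - z)) / s⌋) (fun y hy => ?_)
    (m * (2 * 1002 + 1) ^ 2) fun c _ => ?_
  · rw [Int.card_Icc] at this
    refine (this.trans (Nat.mul_le_mul_left _ (?_ : _ ≤ 5 * (ρ / s + 1)))).trans_eq (by ring)
    generalize ρ / s = q
    omega
  · have a1 := abs_le.1 ((abs_ht (ν := Complex.I * ν) (by simp [hν]) (lft (y - z))).trans
      (len_zd _))
    have a2 : (zd (lft (y - z)) 0 : ℝ) ≤ (ρ / s + 1 : ℕ) * s := by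
      rw [GeoA.zd_lft]
      exact_mod_cast (hZ y hy).2.trans (by rw [mul_comm]; exact (Nat.lt_mul_div_succ ρ hs).le)
    have a3 : (0 : ℝ) ≤ (ρ / s + 1 : ℕ) * s := by positivity
    refine mem_Icc.2 ⟨Int.le_floor.2 ?_, Int.floor_le_iff.2 ?_⟩
    · rw [le_div_iff₀ s0]
      simp only [Int.cast_neg, Int.cast_mul, Int.cast_ofNat, Int.cast_natCast]
      linarith
    · rw [div_lt_iff₀ s0]
      simp only [Int.cast_mul, Int.cast_ofNat, Int.cast_natCast]
      linarith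
  · rcases (Z.filter fun y => ⌊ht (Complex.I * ν) (lft (y - z)) / s⌋ = c).eq_empty_or_nonempty
      with h0 | ⟨y₀, h0⟩
    · rw [h0]; exact Nat.zero_le _
    refine le_trans (card_le_card fun y hy => ?_) (muT_mul hs hm 1002 y₀)
    obtain ⟨a1, a2⟩ := mem_filter.1 hy
    obtain ⟨b1, b2⟩ := mem_filter.1 h0
    refine mem_filter.2 ⟨a1, ?_⟩
    have c1 := len_of_not_dp hν (nd y₀ b1 y a1) (by rw [neg_sub]; exact nd y a1 y₀ b1)
    have c2 := Int.abs_sub_lt_one_of_floor_eq_floor (a2.trans b2.symm)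
    rw [← sub_div, abs_div, abs_of_pos s0, div_lt_one s0, ← B1b.ht_sub] at c2
    have c3 := zd_len (lft (y - z) - lft (y₀ - z))
    have c4 : (1 : ℝ) ≤ s := by exact_mod_cast hs
    have c5 : zd (lft (y - z)) (lft (y₀ - z)) ≤ 1002 * s := by
      rw [zd_sub]
      exact_mod_cast (show (zd (lft (y - z) - lft (y₀ - z)) 0 : ℝ) ≤ 1002 * s by linarith)
    have c6 := tdist_prj_le (M := M) (lft (y - z)) (lft (y₀ - z))
    rw [prj_lft, prj_lft, ← tdist_add _ _ z, sub_add_cancel, sub_add_cancel] at c6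
    exact c6.trans c5

theorem cntL : CntL := by
  obtain ⟨C, h⟩ := cntA
  exact ⟨C, fun M _ I r hL hM z => h M I r z (hL z) hM⟩

end Vale.Agent.P144L.G
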