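import Vale.Agent.P144L.G.Bas
import Vale.Agent.P144E.Ge4.A

/-!
The discretisation of Lipschitz domains; connectivity, thickness and traces.
-/

namespace Vale.Agent.P144L.G

open Finset Vale.Agent.P144Z
open Vale.Agent.P144Z.GeoA (Rch)

theorem chart {K : ℝ} {D : Set ℂ} (h : IsLip K D) (z : ℂ) : ∃ r > (0 : ℝ),
    ∃ (S : Set ℂ) (ν : ℂ), ‖ν‖ = 1 ∧ Cone S ν √(max K 0 / 2) ∧
      D ∩ Metric.ball z r = S ∩ Metric.ball z r := by
  by_cases hz : z ∈ frontier D
  · obtain ⟨r, hr, u, hu, g, hg, hD⟩ := h.2.2 z hz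
    refine ⟨r, hr, {w | g (u * w).re < (u * w).im}, ⟨u.im, u.re⟩, ?_, fun w hw v hv => ?_,
      Set.ext fun w => and_congr_left (hD w)⟩
    · rw [← hu, Complex.norm_eq_sqrt_sq_add_sq, Complex.norm_eq_sqrt_sq_add_sq, add_comm]
    · have h1 : ‖v‖ ^ 2 = (u * v).re * (u * v).re + (u * v).im * (u * v).im := by
        rw [← Complex.normSq_apply, ← Complex.sq_norm, norm_mul, hu, one_mul]
      have h2 := (abs_le.1 (hg ((u * w).re + (u * v).re) (u * w).re)).2
      have h4 : (u * v).im = v.re * u.im + v.im * u.re := by rw [Complex.mul_im]; ring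
      rw [add_sub_cancel_left] at h2
      change g (u * w).re < (u * w).im at hw
      change √(max K 0 / 2) * ‖v‖ ≤ v.re * u.im + v.im * u.re at hv
      change g (u * (w + v)).re < (u * (w + v)).im
      rw [mul_add, Complex.add_re, Complex.add_im]
      rw [← h4] at hv
      have k0 : 0 ≤ max K 0 := le_max_right _ _
      have h5 : 0 ≤ (u * v).im := le_trans (by positivity) hv
      have h6 : max K 0 * |(u * v).re| ≤ (u * v).im := by
        refine (abs_le_of_sq_le_sq' ?_ h5).2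
        have h7 := pow_le_pow_left₀ (by positivity) hv 2
        rw [mul_pow, h1, Real.sq_sqrt (by positivity)] at h7
        rw [mul_pow, sq_abs]
        nlinarith [mul_le_mul_of_nonneg_left h7 k0,
          mul_nonneg (sq_nonneg (max K 0 - 1)) (sq_nonneg (u * v).im)]
      have h8 := mul_le_mul_of_nonneg_right (le_max_left K 0) (abs_nonneg (u * v).re)
      linarith
  · by_cases hc : z ∈ closure D
    · obtain ⟨ε, ε0, h1⟩ := Metric.mem_nhds_iff.1
        (mem_interior_iff_mem_nhds.1 (not_not.1 fun o => hz ⟨hc, o⟩))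
      exact ⟨ε, ε0, Set.univ, 1, norm_one, fun _ _ _ _ => trivial,
        Set.ext fun w => and_congr_left fun hw => ⟨fun _ => trivial, fun _ => h1 hw⟩⟩
    · obtain ⟨ε, ε0, h1⟩ := Metric.mem_nhds_iff.1 (isClosed_closure.isOpen_compl.mem_nhds hc)
      exact ⟨ε, ε0, ∅, 1, norm_one, fun _ o => o.elim,
        Set.ext fun w => and_congr_left fun hw => ⟨fun o => h1 hw (subset_closure o), False.elim⟩⟩

open B6a Ge4 in
/-- The discretisation. -/
theorem rawL : RawL := by
  intro K hK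
  refine ⟨√(max K 0 / 2), ?_, fun D h => ?_⟩
  · have k : max K 0 < 1 := max_lt hK one_pos
    rw [Real.sqrt_lt' (by positivity), div_pow, Real.sq_sqrt (by norm_num)]
    linarith
  obtain ⟨T, T0, hT⟩ := h.2.1.exists_pos_norm_le
  choose R R0 S ν n c hD using chart h
  obtain ⟨F, ρ, ρ0, ρ1, ρ2, -, hF⟩ := cover (T + 1) R R0
  refine ⟨T, T0, ρ, ρ0, fun a ha => ⟨disc_iff hT ha,
    fun x hx => (zd_le ha x).trans (hT _ ((disc_iff hT ha x).1 hx)), fun r r1 hr y => ?_⟩⟩
  rcases le_or_gt ‖pt a y‖ (T + 1) with hy | hy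
  · obtain ⟨z, hz, h1⟩ := hF _ hy
    have h2 := ρ2 z hz
    refine ⟨_, ν z, n z, epi (c z) ha y, fun v hv => ?_⟩
    have h3 : ‖pt a (y + v) - z‖ < R z := by
      have h4 : (zd v 0 : ℝ) ≤ r := by exact_mod_cast hv
      have h5 := le_zd ha v
      have h6 := norm_add_le (pt a y - z) (pt a v)
      rw [sub_add_eq_add_sub, ← pt_add] at h6
      linarith [mul_le_mul_of_nonneg_left h4 ha.le]
    have h4 := Set.ext_iff.1 (hD z) (pt a (y + v))
    simp only [Set.mem_inter_iff, mem_ball_iff_norm.2 h3, and_true] at h4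
    exact (disc_iff hT ha _).trans h4
  · refine ⟨∅, 1, norm_one, fun _ o => o.elim, fun v hv => ⟨fun h1 => ?_, False.elim⟩⟩
    have h2 := hT _ ((disc_iff hT ha _).1 h1)
    have h4 : (zd v 0 : ℝ) ≤ r := by exact_mod_cast hv
    have h5 := le_zd ha v
    have h6 := norm_sub_le (pt a (y + v)) (pt a v)
    rw [← pt_sub, add_sub_cancel_right] at h6
    exfalso
    linarith [mul_le_mul_of_nonneg_left h4 ha.le]

/-- From the plane to the torus. -/
theorem torL : TorL := by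
  intro κ Λ r T M _ h hΛ hM z
  obtain ⟨S, ν, h1, h2, h6⟩ := h (lft z)
  refine ⟨S, ν, h1, h2, fun v hv => Iff.trans ?_ (h6 v hv)⟩
  have M0 := NeZero.pos M
  rw [mem_image]
  constructor
  · rintro ⟨u, hu, e⟩
    have h7 := hΛ u hu
    simp only [zd, Prod.fst_zero, Prod.snd_zero, sub_zero, max_le_iff] at h7 hv
    have h8 : lft z = u - v := by
      rw [← lft_prj (M := M) (v := u - v), G.prj_sub, e, add_sub_cancel_right] <;>
        simp only [Prod.fst_sub, Prod.snd_sub, Int.abs_eq_natAbs] <;> omega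
    rwa [h8, sub_add_cancel]
  · intro hu
    exact ⟨_, hu, by rw [G.prj_add, prj_lft]⟩

/-- The unit steps. -/
def Un (e : ℤ × ℤ) : Prop := e = (1, 0) ∨ e = (0, 1) ∨ e = (-1, 0) ∨ e = (0, -1)

theorem Un.len {e : ℤ × ℤ} (h : Un e) : len e = 1 ∧ zd e 0 = 1 := by
  rcases h with rfl | rfl | rfl | rfl <;> simp [P144Z.len, zd]

theorem num {A B : ℝ} (h : A ^ 2 + B ^ 2 = 1) (h0 : 0 ≤ B) (h1 : B ≤ A) :
    √2 / 2 ≤ A ∧ 2 ≤ A + A + B := by
  constructor
  · refine (abs_le_of_sq_le_sq' ?_ (h0.trans h1)).2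
    rw [div_pow, Real.sq_sqrt (by norm_num)]
    nlinarith
  · exact (abs_le_of_sq_le_sq' (by nlinarith) (by linarith)).2

theorem exists_ax {ν : ℂ} (hν : ‖ν‖ = 1) : ∃ e e', Un e ∧ Un e' ∧ √2 / 2 ≤ ht ν e ∧
    2 ≤ ht ν (e + e + e') ∧ len (e + e + e') ≤ 2.24 ∧ zd (e + e + e') 0 ≤ 2 := by
  obtain ⟨a, ha, ha'⟩ : ∃ a : ℤ, (a = 1 ∨ a = -1) ∧ ht ν (a, 0) = |ν.re| := by
    rcases le_total 0 ν.re with h | h
    · exact ⟨1, Or.inl rfl, by simp [ht, abs_of_nonneg h]⟩
    · exact ⟨-1, Or.inr rfl, by simp [ht, abs_of_nonpos h]⟩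
  obtain ⟨b, hb, hb'⟩ : ∃ b : ℤ, (b = 1 ∨ b = -1) ∧ ht ν (0, b) = |ν.im| := by
    rcases le_total 0 ν.im with h | h
    · exact ⟨1, Or.inl rfl, by simp [ht, abs_of_nonneg h]⟩
    · exact ⟨-1, Or.inr rfl, by simp [ht, abs_of_nonpos h]⟩
  have s : |ν.re| ^ 2 + |ν.im| ^ 2 = 1 := by rw [sq_abs, sq_abs, GeoA.sq_add hν]
  have ua : Un (a, 0) := by rcases ha with rfl | rfl <;> simp [Un]
  have ub : Un (0, b) := by rcases hb with rfl | rfl <;> simp [Un]
  rcases le_total |ν.im| |ν.re| with h | h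
  · have := num s (abs_nonneg _) h
    refine ⟨_, _, ua, ub, ha' ▸ this.1, by rw [B1b.ht_add, B1b.ht_add, ha', hb']; exact this.2, ?_⟩
    rcases ha with rfl | rfl <;> rcases hb with rfl | rfl <;>
      exact ⟨Real.sqrt_le_iff.2 ⟨by norm_num, by norm_num⟩, by decide⟩
  · have := num ((add_comm _ _).trans s) (abs_nonneg _) h
    refine ⟨_, _, ub, ua, hb' ▸ this.1, by rw [B1b.ht_add, B1b.ht_add, ha', hb']; exact this.2, ?_⟩
    rcases ha with rfl | rfl <;> rcases hb with rfl | rfl <;>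
      exact ⟨Real.sqrt_le_iff.2 ⟨by norm_num, by norm_num⟩, by decide⟩

theorem nsmul_est (ν : ℂ) (u : ℤ × ℤ) (n : ℕ) : ht ν (n • u) = n * ht ν u ∧
    len (n • u) ≤ n * len u ∧ zd (n • u) 0 ≤ n * zd u 0 := by
  induction n with
  | zero => simp [ht, len, zd]
  | succ n ih =>
    have h1 := len_add (n • u) u
    have h2 := B1b.zd_add (n • u) u
    rw [succ_nsmul, B1b.ht_add, ih.1, add_one_mul]
    push_cast
    exact ⟨by ring, by linarith [ih.2.1], by omega⟩

theorem rch_step {P : ℤ × ℤ → Prop} {x e : ℤ × ℤ} (he : Un e) (h1 : P x) (h2 : P (x + e)) :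
    Rch P x (x + e) :=
  Relation.ReflTransGen.single ⟨h1, h2, by rcases he with rfl | rfl | rfl | rfl <;> simp⟩

theorem rch_mono {P P' : ℤ × ℤ → Prop} (h : ∀ x, P x → P' x) {a b : ℤ × ℤ} (k : Rch P a b) :
    Rch P' a b := by
  induction k with
  | refl => exact Relation.ReflTransGen.refl
  | tail _ o ih => exact Relation.ReflTransGen.tail ih ⟨h _ o.1, h _ o.2.1, o.2.2⟩

/-- A region above a graph of slope one is locally connected. -/
theorem rch_epi {S : Set (ℤ × ℤ)} {ν : ℂ} (hν : ‖ν‖ = 1) (hS : Epi S ν (√2 / 2)) {a b : ℤ × ℤ}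
    {s : ℕ} (ha : a ∈ S) (hb : b ∈ S) (hab : zd b a ≤ s) :
    Rch (fun v => v ∈ S ∧ zd v a ≤ 16 * s) a b := by
  obtain ⟨e, e', ue, ue', h1, h2, h3, h4⟩ := exists_ax hν
  have c1 : Cn ν e := by unfold Cn; rwa [ue.len.1, mul_one]
  have s1 := s2_le
  have c2 : Cn ν (e + e + e') := by
    unfold Cn
    nlinarith [GeoA.len_nonneg (e + e + e')]
  have z1 : ∀ x, zd (x + e) a ≤ zd x a + 1 := fun x => by
    have := GeoA.zd_tri (x + e) x a
    rw [zd_add_left, ue.len.2] at this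
    omega
  have key : ∀ c ∈ S, zd c a ≤ s → ∀ n ≤ 7 * s, (c + n • (e + e + e') ∈ S ∧
      zd (c + n • (e + e + e')) a ≤ s + 2 * n) ∧
      Rch (fun v => v ∈ S ∧ zd v a ≤ 16 * s) c (c + n • (e + e + e')) := by
    intro c hc hca n hn
    induction n with
    | zero =>
      rw [zero_nsmul, add_zero]
      exact ⟨⟨hc, hca⟩, Relation.ReflTransGen.refl⟩
    | succ n ih =>
      obtain ⟨⟨a1, a2⟩, a3⟩ := ih (by omega)
      rw [succ_nsmul, ← add_assoc c]
      generalize c + n • (e + e + e') = x at a1 a2 a3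
      have b1 := hS x a1 e c1
      have b2 := hS _ b1 e c1
      have b3 := hS x a1 _ c2
      have b4 := GeoA.zd_tri (x + (e + e + e')) x a
      have b5 := z1 x
      have b6 := z1 (x + e)
      rw [zd_add_left] at b4
      refine ⟨⟨b3, by omega⟩, ((a3.trans (rch_step ue ⟨a1, by omega⟩ ⟨b1, by omega⟩)).trans
        (rch_step ue ⟨b1, by omega⟩ ⟨b2, by omega⟩)).trans ?_⟩
      rw [show x + (e + e + e') = x + e + e + e' by abel] at b3 b4 ⊢
      exact rch_step ue' ⟨b2, by omega⟩ ⟨b3, by omega⟩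
  obtain ⟨⟨-, p1⟩, p2⟩ := key a ha (by simp [zd]) _ le_rfl
  refine p2.trans (((key b hb hab _ le_rfl).2.trans (GeoA.rch_box (D := s) (fun x hx => ?_)
    (by simpa [zd] using hab))).symm)
  obtain ⟨q1, q2, q3⟩ := nsmul_est ν (e + e + e') (7 * s)
  generalize (7 * s) • (e + e + e') = w at *
  have q4 := GeoA.zd_tri x (a + w) a
  refine ⟨?_, by omega⟩
  have q5 : (zd (x - (a + w)) 0 : ℝ) ≤ s := by rw [← zd_sub]; exact_mod_cast hx
  have q6 := len_zd (x - (a + w))
  have q7 := len_add w (x - (a + w))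
  have q8 := (abs_le.1 (abs_ht hν (x - (a + w)))).1
  have q9 : (0 : ℝ) ≤ s := Nat.cast_nonneg s
  have := hS a ha (w + (x - (a + w))) (by
    rw [B1b.ht_add, q1]
    push_cast at q2 ⊢
    have r1 := mul_le_mul_of_nonneg_left h3 q9
    have r2 := mul_le_mul_of_nonneg_left h2 q9
    have r3 := mul_le_mul_of_nonneg_right s1 (GeoA.len_nonneg (w + (x - (a + w))))
    linarith)
  rwa [show a + (w + (x - (a + w))) = x by abel] at this

theorem epi_compl {S : Set (ℤ × ℤ)} {ν : ℂ} {κ : ℝ} (h : Epi S ν κ) : Epi Sᶜ (-ν) κ := by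
  intro u hu v hv o
  have := h _ o (-v) (by rwa [len_neg, ht_neg, ← ht_neg'])
  rw [add_neg_cancel_right] at this
  exact hu this

/-- Deep points. -/
theorem deepL : DeepL := by
  refine ⟨20, 1, le_rfl, fun Λ r h _ => ?_⟩
  rw [Nat.div_one]
  have ch : ∀ z, ∃ (S : Set (ℤ × ℤ)) (ν : ℂ), ‖ν‖ = 1 ∧ Epi S ν (√2 / 2) ∧
      ∀ x, zd x z ≤ r → (x ∈ Λ ↔ x ∈ S) := fun z => by
    obtain ⟨S, ν, a, b, c⟩ := h z
    refine ⟨{x | x - z ∈ S}, ν, a, fun u hu v hv => ?_, fun x hx => ?_⟩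
    · have := b _ hu v hv
      rwa [sub_add_eq_add_sub] at this
    · have := c (x - z) (by rwa [← zd_sub])
      rwa [add_sub_cancel] at this
  refine ⟨fun d hd hr u hu => ?_, fun d s _ hd hr p p' hp hp' hs => ?_,
    fun s _ hr f f' hf hf' hs => ?_⟩
  · obtain ⟨S, ν, a, b, c⟩ := ch u
    have h1 := zd_rd a (9 * (d + 1))
    rw [← zd_add_left u] at h1
    refine ⟨_, h1.trans (by omega), fun v hv => ?_⟩
    have h2 := GeoA.zd_tri v (u + rd ν (9 * (d + 1))) u
    have h3 := b u ((c u (by simp [zd])).1 hu) _ (cn_rd a le_rfl (zd_sub _ _ ▸ hv))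
    rw [← add_assoc, add_sub_cancel] at h3
    exact (c v (by omega)).2 h3
  · obtain ⟨S, ν, a, b, c⟩ := ch p
    rw [GeoA.zd_comm] at hs
    have e : Epi {x | ∀ v, zd v x ≤ d → v ∈ S} ν (√2 / 2) := fun x hx w hw v hv => by
      have := b _ (hx (v - w) (by rwa [zd_sub, sub_sub, add_comm, ← zd_sub])) w hw
      rwa [sub_add_cancel] at this
    refine rch_mono (fun x hx v hv => ?_) (rch_epi a e (fun v hv => ?_) (fun v hv => ?_) hs)
    · have := GeoA.zd_tri v x p
      exact (c v (by omega)).2 (hx.1 v hv)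
    · exact (c v (by omega)).1 (hp v (by omega))
    · have := GeoA.zd_tri v p' p
      exact (c v (by omega)).1 (hp' v (by omega))
  · obtain ⟨S, ν, a, b, c⟩ := ch f
    rw [GeoA.zd_comm] at hs
    exact rch_mono (fun x hx o => hx.1 ((c x (by omega)).1 o))
      (rch_epi (by rwa [norm_neg]) (epi_compl b) (fun o => hf ((c f (by simp [zd])).2 o))
        (fun o => hf' ((c f' (by omega)).2 o)) hs)

theorem card_le_of {α : Type} {T : Finset α} {g : α → ℤ} {n : ℕ} (h1 : Set.InjOn g T)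
    (h2 : ∀ x ∈ T, ∀ x' ∈ T, g x' - g x ≤ n) : T.card ≤ 2 * n + 1 := by
  rcases T.eq_empty_or_nonempty with rfl | ⟨x, hx⟩
  · simp
  have := card_le_card_of_injOn (t := Icc (g x - n) (g x + n)) g (fun y hy => by
    have := h2 x hx y hy
    have := h2 y hy x hx
    exact mem_coe.2 (mem_Icc.2 ⟨by omega, by omega⟩)) h1
  rw [Int.card_Icc] at this
  omega

/-- The boundary is rough. -/
theorem rghL : RghL := by
  intro κ hκ
  have k0 : 0 ≤ max κ 0 := le_max_right _ _
  have d0 : 0 < √2 / 2 - max κ 0 := sub_pos.2 (max_lt hκ (by positivity))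
  obtain ⟨n₁, hn⟩ := exists_nat_ge (12 / (√2 / 2 - max κ 0))
  rw [div_le_iff₀ d0] at hn
  refine ⟨2 * n₁ + 40, 3, by norm_num, fun M _ I r h _ hr => ?_⟩
  have l1 : ∀ s, 40 * (s + 1) ≤ (2 * n₁ + 40) * (s + 1) := fun s =>
    Nat.mul_le_mul_right _ (by omega)
  refine ⟨fun y s hs f f' hf hf' hI hI' => ?_, fun f hf s hs => ?_, fun y => ?_⟩
  · obtain ⟨S, ν, a, b, c⟩ := h y
    have l2 := l1 s
    generalize (2 * n₁ + 40) * (s + 1) = ρ at *
    rw [← GeoA.zd_lft] at hf hf'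
    have o : ∀ g, zd (lft (g - y)) 0 ≤ s → g ∉ I → lft (g - y) ∈ Sᶜ := fun g hg k o =>
      k (G.add_prj_lft g y ▸ (c _ (by omega)).2 o)
    have p4 : Rch (fun x => zd x 0 ≤ ρ ∧ y + prj M x ∉ I) (lft (f - y)) (lft (f' - y)) := by
      refine rch_mono (fun x hx => ?_) (rch_epi (s := 2 * s) (by rwa [norm_neg])
        (epi_compl (GeoA.epi_mono b hκ.le)) (o f hf hI) (o f' hf' hI') ?_)
      · have := GeoA.zd_tri x (lft (f - y)) 0
        exact ⟨by omega, fun k => hx.1 ((c x (by omega)).1 k)⟩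
      · have := GeoA.zd_tri (lft (f' - y)) 0 (lft (f - y))
        rw [GeoA.zd_comm 0] at this
        omega
    rw [← G.add_prj_lft f y, ← G.add_prj_lft f' y]
    refine Relation.ReflTransGen.lift (fun x => y + prj M x) ?_ _ _ p4
    rintro u w ⟨q1, q2, q3⟩
    refine ⟨(GeoA.tdist_le_zd y u).trans q1.1, (GeoA.tdist_le_zd y w).trans q2.1, q1.2, q2.2, ?_⟩
    beta_reduce
    rcases q3 with rfl | rfl | rfl | rfl
    · exact ⟨0, Or.inl (by rw [G.prj_add, G.uv_zero, add_assoc])⟩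
    · exact ⟨1, Or.inl (by rw [G.prj_add, G.uv_one, add_assoc])⟩
    · exact ⟨0, Or.inr (by simp [uv, prj, add_assoc])⟩
    · exact ⟨1, Or.inr (by simp [uv, prj, add_assoc])⟩
  · obtain ⟨S, ν, a, b, c⟩ := h f
    have a' : ‖-ν‖ = 1 := by rwa [norm_neg]
    have l2 := l1 s
    have h1 := zd_rd a' (9 * (s + 1))
    refine ⟨f + prj M (rd (-ν) (9 * (s + 1))), (GeoA.tdist_le_zd _ _).trans (by omega),
      fun g hg k => ?_⟩
    obtain ⟨x, x1, -, x2⟩ := near_in c (by omega) hg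
    have h3 := epi_compl (GeoA.epi_mono b hκ.le) 0 (fun o => hf (by
      simpa [G.prj_zero] using (c 0 (by simp [zd])).2 o)) _ (cn_rd a' le_rfl (zd_sub _ _ ▸ x1))
    rw [zero_add, add_sub_cancel] at h3
    exact h3 (x2.1 k)
  · classical
    obtain ⟨S, ν, a, b, c⟩ := h y
    obtain ⟨e, -, ue, -, h1, -⟩ := exists_ax a
    obtain ⟨T, hT⟩ : ∃ T : Finset (Tor M), ∀ x, x ∈ T ↔ tdist x y ≤ r / 3 ∧ NearB I 2 x :=
      ⟨univ.filter fun x => tdist x y ≤ r / 3 ∧ NearB I 2 x, by simp⟩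
    have nd : ∀ x ∈ T, ∀ x' ∈ T, ∀ n : ℕ, lft (x' - y) - lft (x - y) = n • e → n ≤ n₁ := by
      intro x hx x' hx' n hn'
      by_contra hc
      obtain ⟨a1, ⟨f, f1, f2⟩, -⟩ := (hT x).1 hx
      obtain ⟨a2, -, f', f3, f4⟩ := (hT x').1 hx'
      rw [← GeoA.zd_lft] at a1 a2
      rw [← G.add_prj_lft x y] at f2
      rw [← G.add_prj_lft x' y] at f4
      obtain ⟨u, u1, -, u2⟩ := near_in c (by omega) f2
      obtain ⟨u', u3, -, u4⟩ := near_in c (by omega) f4
      obtain ⟨q1, q2, -⟩ := nsmul_est ν e n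
      have q3 := B1b.zd_sub (u' - lft (x' - y)) (u - lft (x - y))
      rw [← zd_sub u, ← zd_sub u'] at q3
      have q4 : u' - u = n • e + (u' - lft (x' - y) - (u - lft (x - y))) := by rw [← hn']; abel
      generalize u' - lft (x' - y) - (u - lft (x - y)) = d at q3 q4
      have q5 : (zd d 0 : ℝ) ≤ 4 := by exact_mod_cast (by omega : zd d 0 ≤ 4)
      have q6 := len_zd d
      have q7 := len_add (n • e) d
      have q8 := (abs_le.1 (abs_ht a d)).1
      have q9 : (n₁ : ℝ) ≤ n := by exact_mod_cast (by omega : n₁ ≤ n)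
      rw [ue.len.1] at q2
      have := GeoA.epi_mono b (le_max_left κ 0) u (u2.1 f1) (u' - u) (by
        rw [q4, B1b.ht_add, q1]
        have r1 := mul_le_mul_of_nonneg_left (show len (n • e + d) ≤ n + 6 by linarith) k0
        have r2 := mul_le_mul_of_nonneg_left h1 (Nat.cast_nonneg (α := ℝ) n)
        have r3 := mul_le_mul_of_nonneg_right q9 d0.le
        linarith [s2_le])
      rw [add_sub_cancel] at this
      exact f3 (u4.2 this)
    have inj : ∀ x x' : Tor M, lft (x - y) = lft (x' - y) → x = x' := fun x x' o => by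
      rw [← G.add_prj_lft x y, o, G.add_prj_lft]
    have row : ∀ x x' : Tor M, x.2 = x'.2 → (lft (x - y)).2 = (lft (x' - y)).2 := fun x x' o => by
      simp only [lft, Prod.snd_sub, o]
    have col : ∀ x x' : Tor M, x.1 = x'.1 → (lft (x - y)).1 = (lft (x' - y)).1 := fun x x' o => by
      simp only [lft, Prod.fst_sub, o]
    have hor : ∀ σ : ℤ, (σ = 1 ∨ σ = -1) → e = (σ, 0) → ∀ t,
        (T.filter fun x => x.2 = t).card ≤ 2 * n₁ + 40 := by
      rintro σ hσ rfl t
      refine (card_le_of (g := fun x => σ * (lft (x - y)).1) (n := n₁)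
        (fun x hx x' hx' o => inj x x' (Prod.ext ?_ ?_)) fun x hx x' hx' => ?_).trans (by omega)
      · rcases hσ with rfl | rfl <;> simpa using o
      · exact row x x' ((mem_filter.1 hx).2.trans (mem_filter.1 hx').2.symm)
      · have r1 := row x x' ((mem_filter.1 hx).2.trans (mem_filter.1 hx').2.symm)
        have := nd x (mem_filter.1 hx).1 x' (mem_filter.1 hx').1
          (σ * (lft (x' - y)).1 - σ * (lft (x - y)).1).toNat
        simp only [Prod.ext_iff, Prod.fst_sub, Prod.snd_sub, Prod.smul_mk, nsmul_eq_mul] at this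
        rcases hσ with rfl | rfl <;> omega
    have ver : ∀ σ : ℤ, (σ = 1 ∨ σ = -1) → e = (0, σ) → ∀ t,
        (T.filter fun x => x.1 = t).card ≤ 2 * n₁ + 40 := by
      rintro σ hσ rfl t
      refine (card_le_of (g := fun x => σ * (lft (x - y)).2) (n := n₁)
        (fun x hx x' hx' o => inj x x' (Prod.ext ?_ ?_)) fun x hx x' hx' => ?_).trans (by omega)
      · exact col x x' ((mem_filter.1 hx).2.trans (mem_filter.1 hx').2.symm)
      · rcases hσ with rfl | rfl <;> simpa using o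
      · have r1 := col x x' ((mem_filter.1 hx).2.trans (mem_filter.1 hx').2.symm)
        have := nd x (mem_filter.1 hx).1 x' (mem_filter.1 hx').1
          (σ * (lft (x' - y)).2 - σ * (lft (x - y)).2).toNat
        simp only [Prod.ext_iff, Prod.fst_sub, Prod.snd_sub, Prod.smul_mk, nsmul_eq_mul] at this
        rcases hσ with rfl | rfl <;> omega
    rcases ue with o | o | o | o
    · exact ⟨T, ∅, fun x x1 x2 => Or.inl ((hT x).2 ⟨x1, x2⟩), hor 1 (by simp) o, by simp⟩
    · exact ⟨∅, T, fun x x1 x2 => Or.inr ((hT x).2 ⟨x1, x2⟩), by simp, ver 1 (by simp) o⟩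
    · exact ⟨T, ∅, fun x x1 x2 => Or.inl ((hT x).2 ⟨x1, x2⟩), hor (-1) (by simp) o, by simp⟩
    · exact ⟨∅, T, fun x x1 x2 => Or.inr ((hT x).2 ⟨x1, x2⟩), by simp, ver (-1) (by simp) o⟩

end Vale.Agent.P144L.G
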